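import Vale.Agent.P046.Full.Local.Generic

/-!
P046, the exact constant, late phase: the rates, as functions of `x = log n`.
-/

namespace Vale.Agent.P046.Full

open Filter Topology

/-- The time left between the phases, as a function of `log n`. -/
noncomputable def aOf (x : ℝ) : ℝ := (1 / x ^ (9 / 10 : ℝ) - 1 / x ^ (21 / 5 : ℝ)) / 2

lemma aOf_bounds : ∀ᶠ x in atTop, 1 / (4 * x ^ (9 / 10 : ℝ)) ≤ aOf x ∧ aOf x ≤ 1 := by
  filter_upwards [eventually_ge_atTop (2 : ℝ)] with x hx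
  have hx0 : (0 : ℝ) < x := by linarith
  have h1 : 0 < x ^ (9 / 10 : ℝ) := Real.rpow_pos_of_pos hx0 _
  have h2 : 1 ≤ x ^ (9 / 10 : ℝ) := Real.one_le_rpow (by linarith) (by norm_num)
  have h3 : 2 * x ^ (9 / 10 : ℝ) ≤ x ^ (21 / 5 : ℝ) := by
    have e : x ^ (21 / 5 : ℝ) = x ^ (33 / 10 : ℝ) * x ^ (9 / 10 : ℝ) := by
      rw [← Real.rpow_add hx0]; norm_num
    have h4 : x ≤ x ^ (33 / 10 : ℝ) := Real.self_le_rpow_of_one_le (by linarith) (by norm_num)
    rw [e]; nlinarith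
  have h4 : 1 / x ^ (21 / 5 : ℝ) ≤ 1 / (2 * x ^ (9 / 10 : ℝ)) :=
    one_div_le_one_div_of_le (by positivity) h3
  have e : 1 / (2 * x ^ (9 / 10 : ℝ)) = 1 / x ^ (9 / 10 : ℝ) / 2 := by ring
  have e' : 1 / (4 * x ^ (9 / 10 : ℝ)) = 1 / x ^ (9 / 10 : ℝ) / 4 := by ring
  have h5 : 1 / x ^ (9 / 10 : ℝ) ≤ 1 := by rw [div_le_one h1]; exact h2
  have h6 : 0 ≤ 1 / x ^ (21 / 5 : ℝ) := by positivity
  unfold aOf
  constructor <;> linarith

lemma depth_sched_le {a₀ t k₀ : ℝ} (hk : 0 ≤ k₀) :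
    (depth (sched a₀ t k₀) : ℝ) ≤ 204 * k₀ + stageCount a₀ t := by
  unfold depth sched
  rw [List.map_map]
  induction stageCount a₀ t with
  | zero => simp; positivity
  | succ S _ =>
    have key : ∀ S : ℕ, ((((List.range S).map (Prod.snd ∘ fun i : ℕ =>
        (min (a₀ * (51 / 50) ^ (i + 1)) (a₀ + t) - a₀ * (51 / 50) ^ i,
          ⌈4 * k₀ * (50 / 51 : ℝ) ^ i⌉₊))).sum : ℕ) : ℝ) ≤
        204 * k₀ * (1 - (50 / 51 : ℝ) ^ S) + S := by
      intro S
      induction S with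
      | zero => simp
      | succ S ih =>
        rw [List.sum_range_succ]
        have h := (Nat.ceil_lt_add_one (show 0 ≤ 4 * k₀ * (50 / 51 : ℝ) ^ S by positivity)).le
        simp only [Function.comp_apply, Nat.cast_add, Nat.cast_one, pow_succ]
        simp only [Function.comp_def] at ih ⊢
        linarith
    have h := key (S + 1)
    have h0 : 0 ≤ 204 * k₀ * (50 / 51 : ℝ) ^ (S + 1) := by positivity
    linarith

lemma stageCount_le {a₀ t : ℝ} (ha : 0 < a₀) (ht : 0 ≤ t) :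
    (stageCount a₀ t : ℝ) ≤ 51 * Real.log (1 + t / a₀) + 1 := by
  have hl : (0 : ℝ) ≤ Real.log (1 + t / a₀) :=
    Real.log_nonneg (by have : 0 ≤ t / a₀ := div_nonneg ht ha.le; linarith)
  have h51 : (1 : ℝ) / 51 ≤ Real.log (51 / 50) :=
    le_trans (by norm_num) (Real.one_sub_inv_le_log_of_pos (by norm_num))
  have h0 : (0 : ℝ) < Real.log (51 / 50) := lt_of_lt_of_le (by norm_num) h51
  refine (Nat.ceil_lt_add_one (div_nonneg hl h0.le)).le.trans ?_
  have : Real.log (1 + t / a₀) / Real.log (51 / 50) ≤ Real.log (1 + t / a₀) / (1 / 51) :=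
    div_le_div_of_nonneg_left hl (by norm_num) h51
  rw [div_div_eq_mul_div, div_one, mul_comm] at this
  linarith

lemma log_ratio_le {t : ℝ} (ht : 0 ≤ t) : ∀ᶠ x in atTop,
    Real.log (1 + t / aOf x) ≤ Real.log (1 + 4 * t) + Real.log x ∧
      Real.log (1 + t / aOf x) ≤ 4 * t * x := by
  filter_upwards [aOf_bounds, eventually_ge_atTop (1 : ℝ)] with x ha hx
  have hx0 : (0 : ℝ) < x := by linarith
  have ha0 : 0 < aOf x := lt_of_lt_of_le (by positivity) ha.1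
  have h1 : t / aOf x ≤ 4 * t * x := by
    calc t / aOf x ≤ t / (1 / (4 * x ^ (9 / 10 : ℝ))) :=
          div_le_div_of_nonneg_left ht (by positivity) ha.1
      _ = 4 * t * x ^ (9 / 10 : ℝ) := by field_simp
      _ ≤ 4 * t * x := mul_le_mul_of_nonneg_left
          (Real.rpow_le_self_of_one_le hx (by norm_num)) (by positivity)
  have h2 : 0 ≤ t / aOf x := div_nonneg ht ha0.le
  refine ⟨?_, ?_⟩
  · rw [← Real.log_mul (by positivity) hx0.ne']
    exact Real.log_le_log (by positivity) (by nlinarith)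
  · have := Real.log_le_sub_one_of_pos (show 0 < 1 + t / aOf x by positivity)
    linarith

lemma depth_le_radius {t : ℝ} (ht : 0 ≤ t) : ∀ᶠ x in atTop,
    depth (sched (aOf x) t (x ^ (24 / 25 : ℝ))) + 1 ≤ ⌈256 * x ^ (24 / 25 : ℝ)⌉₊ := by
  have hbig : ∀ᶠ x : ℝ in atTop,
      51 * Real.log (1 + 4 * t) + 2 + 102 * x ^ (1 / 2 : ℝ) ≤ 52 * x ^ (24 / 25 : ℝ) := by
    have h1 := (tendsto_rpow_atTop (show (0 : ℝ) < 23 / 50 by norm_num)).eventually_ge_atTop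
      ((51 * Real.log (1 + 4 * t) + 2 + 102) / 52)
    filter_upwards [h1, eventually_ge_atTop (1 : ℝ)] with x hx hx1
    have e : x ^ (24 / 25 : ℝ) = x ^ (1 / 2 : ℝ) * x ^ (23 / 50 : ℝ) := by
      rw [← Real.rpow_add (by linarith)]; norm_num
    have h2 : 1 ≤ x ^ (1 / 2 : ℝ) := Real.one_le_rpow hx1 (by norm_num)
    have h3 : 0 ≤ Real.log (1 + 4 * t) := Real.log_nonneg (by linarith)
    rw [div_le_iff₀ (by norm_num)] at hx
    rw [e]
    nlinarith
  filter_upwards [hbig, aOf_bounds, log_ratio_le ht, eventually_ge_atTop (1 : ℝ)] with x hb ha hl hx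
  have hx0 : (0 : ℝ) < x := by linarith
  have ha0 : 0 < aOf x := lt_of_lt_of_le (by positivity) ha.1
  have h1 := depth_sched_le (a₀ := aOf x) (t := t) (Real.rpow_nonneg hx0.le (24 / 25))
  have h2 := stageCount_le ha0 ht
  have h3 := Real.log_le_rpow_div hx0.le (show (0 : ℝ) < 1 / 2 by norm_num)
  rw [← Nat.cast_le (α := ℝ), Nat.cast_add, Nat.cast_one]
  refine le_trans ?_ (Nat.le_ceil _)
  linarith [hl.1]

/-- The growth error against a power of `log n`. -/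
lemma growth_rate {t : ℝ} (ht : 0 < t) (K : ℝ) : ∀ δ : ℝ, 0 < δ → ∀ᶠ x in atTop,
    K * (x ^ (24 / 25 : ℝ) + Real.log (1 + t / aOf x) + 1) ^ 2 *
      Real.exp (-(x ^ (24 / 25 : ℝ) * aOf x / (aOf x + t))) * x ^ 8 ≤ δ := by
  intro δ hδ
  have hc : (0 : ℝ) < 1 / (4 * (1 + t)) := by positivity
  have hlim : Tendsto (fun x : ℝ => (|K| + 1) * (2 + 4 * t) ^ 2 *
      ((x ^ (3 / 50 : ℝ)) ^ (500 / 3 : ℝ) *
        Real.exp (-(1 / (4 * (1 + t))) * x ^ (3 / 50 : ℝ)))) atTop (𝓝 0) := by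
    simpa using ((tendsto_rpow_mul_exp_neg_mul_atTop_nhds_zero (500 / 3) _ hc).comp
      (tendsto_rpow_atTop (show (0 : ℝ) < 3 / 50 by norm_num))).const_mul
        ((|K| + 1) * (2 + 4 * t) ^ 2)
  filter_upwards [hlim.eventually (ge_mem_nhds hδ), aOf_bounds, log_ratio_le ht.le,
    eventually_ge_atTop (1 : ℝ)] with x hx ha hl hx1
  have hx0 : (0 : ℝ) < x := by linarith
  have ha0 : 0 < aOf x := lt_of_lt_of_le (by positivity) ha.1
  have hk : x ^ (24 / 25 : ℝ) ≤ x := Real.rpow_le_self_of_one_le hx1 (by norm_num)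
  have hk0 : 0 ≤ x ^ (24 / 25 : ℝ) := Real.rpow_nonneg hx0.le _
  have hl0 : 0 ≤ Real.log (1 + t / aOf x) :=
    Real.log_nonneg (by have : 0 ≤ t / aOf x := by positivity
                        linarith)
  have h1 : (x ^ (24 / 25 : ℝ) + Real.log (1 + t / aOf x) + 1) ^ 2 ≤ (2 + 4 * t) ^ 2 * x ^ 2 := by
    rw [← mul_pow]
    exact pow_le_pow_left₀ (by linarith) (by linarith [hl.2]) 2
  have h2 : 1 / (4 * (1 + t)) * x ^ (3 / 50 : ℝ) ≤
      x ^ (24 / 25 : ℝ) * aOf x / (aOf x + t) := by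
    have e : x ^ (24 / 25 : ℝ) * (1 / (4 * x ^ (9 / 10 : ℝ))) = x ^ (3 / 50 : ℝ) / 4 := by
      rw [show (24 / 25 : ℝ) = 3 / 50 + 9 / 10 by norm_num, Real.rpow_add hx0]
      field_simp
    calc 1 / (4 * (1 + t)) * x ^ (3 / 50 : ℝ) = x ^ (3 / 50 : ℝ) / 4 / (1 + t) := by field_simp
      _ ≤ x ^ (24 / 25 : ℝ) * aOf x / (1 + t) := by
          rw [← e]
          gcongr
          exact ha.1
      _ ≤ _ := div_le_div_of_nonneg_left (by positivity) (by linarith) (by linarith [ha.2])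
  have h3 : x ^ 2 * x ^ 8 = (x ^ (3 / 50 : ℝ)) ^ (500 / 3 : ℝ) := by
    rw [← Real.rpow_mul hx0.le, ← pow_add,
      show (3 / 50 * (500 / 3) : ℝ) = ((10 : ℕ) : ℝ) by norm_num, Real.rpow_natCast]
  have h4 : Real.exp (-(x ^ (24 / 25 : ℝ) * aOf x / (aOf x + t))) ≤
      Real.exp (-(1 / (4 * (1 + t))) * x ^ (3 / 50 : ℝ)) :=
    Real.exp_le_exp.2 (by linarith)
  refine le_trans ?_ hx
  rw [← h3]
  calc _ ≤ (|K| + 1) * ((2 + 4 * t) ^ 2 * x ^ 2) *
        Real.exp (-(1 / (4 * (1 + t))) * x ^ (3 / 50 : ℝ)) * x ^ 8 := by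
        gcongr
        linarith [le_abs_self K]
    _ = _ := by ring

/-- The count of meeting balls is a small power of `n`. -/
lemma ball_rate : ∀ᶠ x in atTop,
    ((1 + 3 * ⌊2 * x ^ (21 / 5 : ℝ)⌋₊ : ℕ) : ℝ) ^ (2 * ⌈256 * x ^ (24 / 25 : ℝ)⌉₊) ≤
      Real.exp (x / 4) := by
  have h1 := (tendsto_rpow_atTop (show (0 : ℝ) < 1 / 50 by norm_num)).eventually_ge_atTop
      (4 * (514 * (7 + 250)))
  filter_upwards [h1, eventually_ge_atTop (1 : ℝ)] with x hx hx1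
  have hx0 : (0 : ℝ) < x := by linarith
  have hp : 1 ≤ x ^ (21 / 5 : ℝ) := Real.one_le_rpow hx1 (by norm_num)
  have hb : ((1 + 3 * ⌊2 * x ^ (21 / 5 : ℝ)⌋₊ : ℕ) : ℝ) ≤ 7 * x ^ (21 / 5 : ℝ) := by
    have := Nat.floor_le (show 0 ≤ 2 * x ^ (21 / 5 : ℝ) by positivity)
    push_cast
    linarith
  have hk : 1 ≤ x ^ (24 / 25 : ℝ) := Real.one_le_rpow hx1 (by norm_num)
  have hR : ((2 * ⌈256 * x ^ (24 / 25 : ℝ)⌉₊ : ℕ) : ℝ) ≤ 514 * x ^ (24 / 25 : ℝ) := by
    have := (Nat.ceil_lt_add_one (show 0 ≤ 256 * x ^ (24 / 25 : ℝ) by positivity)).le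
    push_cast
    linarith
  rw [← Real.log_le_iff_le_exp (by positivity), Real.log_pow]
  have hlog : Real.log ((1 + 3 * ⌊2 * x ^ (21 / 5 : ℝ)⌋₊ : ℕ) : ℝ) ≤ (7 + 250) * x ^ (1 / 50 : ℝ) := by
    refine (Real.log_le_log (by positivity) hb).trans ?_
    rw [Real.log_mul (by norm_num) (by positivity), Real.log_rpow hx0]
    have h2 := Real.log_le_sub_one_of_pos (show (0 : ℝ) < 7 by norm_num)
    have h3 := Real.log_le_rpow_div hx0.le (show (0 : ℝ) < 1 / 50 by norm_num)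
    have h4 : 1 ≤ x ^ (1 / 50 : ℝ) := Real.one_le_rpow hx1 (by norm_num)
    linarith
  calc _ ≤ 514 * x ^ (24 / 25 : ℝ) * ((7 + 250) * x ^ (1 / 50 : ℝ)) :=
        mul_le_mul hR hlog (Real.log_nonneg (by exact_mod_cast Nat.le_add_right 1 _)) (by positivity)
    _ = (514 * (7 + 250)) * (x ^ (24 / 25 : ℝ) * x ^ (1 / 50 : ℝ)) := by ring
    _ ≤ x / 4 := by
        rw [← Real.rpow_add hx0]
        have e : x = x ^ (24 / 25 + 1 / 50 : ℝ) * x ^ (1 / 50 : ℝ) := by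
          rw [← Real.rpow_add hx0]; norm_num
        have : 0 ≤ x ^ (24 / 25 + 1 / 50 : ℝ) := by positivity
        nlinarith

lemma tail_rate (δ : ℝ) (hδ : 0 < δ) : ∀ᶠ x in atTop,
    (x + 3) * Real.exp (-(x / 8)) ≤ δ := by
  have hlim : Tendsto (fun x : ℝ => 4 * (x ^ (1 : ℝ) * Real.exp (-(1 / 8) * x))) atTop (𝓝 0) := by
    simpa using (tendsto_rpow_mul_exp_neg_mul_atTop_nhds_zero 1 (1 / 8) (by norm_num)).const_mul 4
  filter_upwards [hlim.eventually (ge_mem_nhds hδ), eventually_ge_atTop (1 : ℝ)] with x hx hx1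
  refine le_trans ?_ hx
  rw [Real.rpow_one, ← mul_assoc, show -(1 / 8) * x = -(x / 8) by ring]
  exact mul_le_mul_of_nonneg_right (by linarith) (Real.exp_pos _).le

end Vale.Agent.P046.Full
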