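import Vale.Agent.P046.Full.ThreeBase

/-!
P046, the exact constant, late phase: balls of hypergraphs, their size, and their lift to a cover.
-/

namespace Vale.Agent.P046.Full

open Finset

variable {V : Type} [Fintype V] [DecidableEq V] {T : Finset (Finset V)}

lemma hball_one_succ (a : V) (k : ℕ) :
    (hball T a (k + 1)).1 =
      (hball T a k).1 ∪ ((hball T a (k + 1)).2).biUnion id := rfl

lemma hball_two_succ (a : V) (k : ℕ) :
    (hball T a (k + 1)).2 = T.filter (fun F => ¬Disjoint F (hball T a k).1) := rfl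

lemma hball_one_mono (a : V) (k : ℕ) : (hball T a k).1 ⊆ (hball T a (k + 1)).1 :=
  Finset.subset_union_left

lemma mem_hball_root (a : V) (k : ℕ) : a ∈ (hball T a k).1 := by
  induction k with
  | zero => simp [hball]
  | succ k ih => exact hball_one_mono a k ih

lemma hball_subset_pts {U : Finset V} (hU : ∀ F ∈ T, F ⊆ U) {a : V} (ha : a ∈ U) (k : ℕ) :
    (hball T a k).1 ⊆ U := by
  induction k with
  | zero => simpa [hball] using ha
  | succ k ih =>
    refine Finset.union_subset ih (Finset.biUnion_subset.2 fun F hF => ?_)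
    exact hU F (Finset.mem_filter.1 hF).1

lemma hball_two_subset_one {a : V} {k : ℕ} {F : Finset V} (hF : F ∈ (hball T a k).2) :
    F ⊆ (hball T a k).1 := by
  cases k with
  | zero => simp [hball] at hF
  | succ k => exact Finset.subset_union_right.trans' (Finset.subset_biUnion_of_mem id hF)

lemma hball_two_mono (a : V) (k : ℕ) : (hball T a k).2 ⊆ (hball T a (k + 1)).2 := by
  intro F hF
  cases k with
  | zero => simp [hball] at hF
  | succ k =>
    rw [hball_two_succ] at hF ⊢
    obtain ⟨h1, h2⟩ := Finset.mem_filter.1 hF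
    exact Finset.mem_filter.2 ⟨h1, fun hd => h2 (hd.mono_right (hball_one_mono a k))⟩

/-- The points of the next ball beyond the present one, hyperedge by hyperedge. -/
lemma hball_succ_card_le (a : V) (k : ℕ) :
    (hball T a (k + 1)).1.card ≤ (hball T a k).1.card +
      ∑ F ∈ (hball T a (k + 1)).2 \ (hball T a k).2, (F \ (hball T a k).1).card := by
  refine le_trans (Finset.card_le_card ?_)
    ((Finset.card_union_le _ _).trans (Nat.add_le_add_left Finset.card_biUnion_le _))
  intro x hx
  rw [hball_one_succ, Finset.mem_union, Finset.mem_biUnion] at hx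
  rw [Finset.mem_union, Finset.mem_biUnion]
  rcases hx with hx | ⟨F, hF, hxF⟩
  · exact .inl hx
  · by_cases hxk : x ∈ (hball T a k).1
    · exact .inl hxk
    · refine .inr ⟨F, Finset.mem_sdiff.2 ⟨hF, fun hFk => hxk (hball_two_subset_one hFk hxF)⟩,
        Finset.mem_sdiff.2 ⟨hxF, hxk⟩⟩

lemma sdiff_card_le_two (h3 : ∀ F ∈ T, F.card = 3) {a : V} {k : ℕ} {F : Finset V}
    (hF : F ∈ (hball T a (k + 1)).2) : (F \ (hball T a k).1).card ≤ 2 := by
  rw [hball_two_succ] at hF
  obtain ⟨h1, h2⟩ := Finset.mem_filter.1 hF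
  obtain ⟨x, hx, hx'⟩ := Finset.not_disjoint_iff.1 h2
  calc (F \ (hball T a k).1).card ≤ (F.erase x).card := by
        refine Finset.card_le_card fun y hy => ?_
        rw [Finset.mem_sdiff] at hy
        exact Finset.mem_erase.2 ⟨fun h => hy.2 (h ▸ hx'), hy.1⟩
    _ = 2 := by rw [Finset.card_erase_of_mem hx, h3 F h1]

lemma hball_card_le_two (h3 : ∀ F ∈ T, F.card = 3) (a : V) (k : ℕ) :
    (hball T a k).1.card ≤ 2 * (hball T a k).2.card + 1 := by
  induction k with
  | zero => simp [hball]
  | succ k ih =>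
    have h1 := hball_succ_card_le (T := T) a k
    have h2 := Finset.sum_le_card_nsmul ((hball T a (k + 1)).2 \ (hball T a k).2)
      (fun F => (F \ (hball T a k).1).card) 2
      (fun F hF => sdiff_card_le_two h3 (Finset.mem_sdiff.1 hF).1)
    have h4 := Finset.card_sdiff_add_card_eq_card (hball_two_mono (T := T) a k)
    simp only [smul_eq_mul] at h2
    omega

/-- In a tree ball every new hyperedge meets the old ball once. -/
lemma tree_step (h3 : ∀ F ∈ T, F.card = 3) {a : V} {k : ℕ} (h : htree T (k + 1) a) :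
    htree T k a ∧ ∀ F ∈ (hball T a (k + 1)).2, F ∉ (hball T a k).2 →
      ∀ x ∈ F, ∀ y ∈ F, x ∈ (hball T a k).1 → y ∈ (hball T a k).1 → x = y := by
  unfold htree at h ⊢
  have h0 := hball_card_le_two h3 a k
  have h1 := hball_succ_card_le (T := T) a k
  have hle : ∀ F ∈ (hball T a (k + 1)).2 \ (hball T a k).2, (F \ (hball T a k).1).card ≤ 2 :=
    fun F hF => sdiff_card_le_two h3 (Finset.mem_sdiff.1 hF).1
  have h2 := Finset.sum_le_card_nsmul ((hball T a (k + 1)).2 \ (hball T a k).2)
      (fun F => (F \ (hball T a k).1).card) 2 hle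
  have h4 := Finset.card_sdiff_add_card_eq_card (hball_two_mono (T := T) a k)
  simp only [smul_eq_mul] at h2
  refine ⟨by omega, fun F hF hFk x hx y hy hxk hyk => ?_⟩
  by_contra hne
  have hlt : ∑ F ∈ (hball T a (k + 1)).2 \ (hball T a k).2, (F \ (hball T a k).1).card <
      ∑ _F ∈ (hball T a (k + 1)).2 \ (hball T a k).2, 2 := by
    refine Finset.sum_lt_sum hle ⟨F, Finset.mem_sdiff.2 ⟨hF, hFk⟩, ?_⟩
    calc (F \ (hball T a k).1).card ≤ (F \ {x, y}).card :=
          Finset.card_le_card (Finset.sdiff_subset_sdiff (Finset.Subset.refl F) (by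
            simp [Finset.insert_subset_iff, hxk, hyk]))
      _ < 2 := by
        rw [Finset.card_sdiff_of_subset (by simp [Finset.insert_subset_iff, hx, hy]),
          Finset.card_pair hne, h3 F (Finset.mem_filter.1 hF).1]
        norm_num
  simp only [Finset.sum_const, smul_eq_mul] at hlt
  omega

lemma htree_mono (h3 : ∀ F ∈ T, F.card = 3) {a : V} {j k : ℕ} (hjk : j ≤ k) (h : htree T k a) :
    htree T j a := by
  induction k, hjk using Nat.le_induction with
  | base => exact h
  | succ k _ ih => exact ih (tree_step h3 h).1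

/-- Balls grow by the degree at each step. -/
lemma hball_card_le_pow (h3 : ∀ F ∈ T, F.card = 3) {U : Finset V} (hU : ∀ F ∈ T, F ⊆ U)
    {Dm : ℕ} (hD : ∀ a ∈ U, hdeg T a ≤ Dm) {a : V} (ha : a ∈ U) (k : ℕ) :
    (hball T a k).1.card ≤ (1 + 3 * Dm) ^ k := by
  induction k with
  | zero => simp [hball]
  | succ k ih =>
    have h1 : (hball T a (k + 1)).1 ⊆ (hball T a k).1 ∪
        (hball T a k).1.biUnion (fun x => (T.filter (fun F => x ∈ F)).biUnion id) := by
      intro y hy
      rw [hball_one_succ, Finset.mem_union, Finset.mem_biUnion] at hy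
      rcases hy with hy | ⟨F, hF, hyF⟩
      · exact Finset.mem_union_left _ hy
      · rw [hball_two_succ, Finset.mem_filter, Finset.not_disjoint_iff] at hF
        obtain ⟨hFT, x, hxF, hxk⟩ := hF
        exact Finset.mem_union_right _ (Finset.mem_biUnion.2 ⟨x, hxk,
          Finset.mem_biUnion.2 ⟨F, Finset.mem_filter.2 ⟨hFT, hxF⟩, hyF⟩⟩)
    calc (hball T a (k + 1)).1.card
        ≤ (hball T a k).1.card + (hball T a k).1.card * (Dm * 3) := by
          refine (Finset.card_le_card h1).trans ((Finset.card_union_le _ _).trans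
            (Nat.add_le_add_left (Finset.card_biUnion_le_card_mul _ _ _ fun x hx => ?_) _))
          refine (Finset.card_biUnion_le_card_mul _ _ 3 fun F hF =>
            (h3 F (Finset.mem_filter.1 hF).1).le).trans ?_
          exact Nat.mul_le_mul_right 3 (hD x (hball_subset_pts hU ha k hx))
      _ = (hball T a k).1.card * (1 + 3 * Dm) := by ring
      _ ≤ (1 + 3 * Dm) ^ (k + 1) := by
          rw [pow_succ]; exact Nat.mul_le_mul_right _ ih

lemma hball_trans {a b c : V} {i j : ℕ} (hb : b ∈ (hball T a i).1) (hc : c ∈ (hball T b j).1) :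
    c ∈ (hball T a (i + j)).1 := by
  induction j generalizing c with
  | zero => simp [hball] at hc; simpa [hc] using hb
  | succ j ih =>
    rw [hball_one_succ, Finset.mem_union, Finset.mem_biUnion] at hc
    rw [← Nat.add_assoc, hball_one_succ, Finset.mem_union, Finset.mem_biUnion]
    rcases hc with hc | ⟨F, hF, hcF⟩
    · exact .inl (ih hc)
    · rw [hball_two_succ, Finset.mem_filter, Finset.not_disjoint_iff] at hF
      obtain ⟨hFT, x, hxF, hxk⟩ := hF
      refine .inr ⟨F, ?_, hcF⟩
      rw [hball_two_succ, Finset.mem_filter, Finset.not_disjoint_iff]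
      exact ⟨hFT, x, hxF, ih hxk⟩

lemma hball_symm {a b : V} {k : ℕ} (hb : b ∈ (hball T a k).1) : a ∈ (hball T b k).1 := by
  induction k generalizing b with
  | zero => simp [hball] at hb ⊢; exact hb.symm
  | succ k ih =>
    rw [hball_one_succ, Finset.mem_union, Finset.mem_biUnion] at hb
    rcases hb with hb | ⟨F, hF, hbF⟩
    · exact hball_one_mono b k (ih hb)
    · rw [hball_two_succ, Finset.mem_filter, Finset.not_disjoint_iff] at hF
      obtain ⟨hFT, x, hxF, hxk⟩ := hF
      have hx1 : x ∈ (hball T b 1).1 := by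
        rw [hball_one_succ, Finset.mem_union, Finset.mem_biUnion]
        refine .inr ⟨F, ?_, hxF⟩
        rw [hball_two_succ, Finset.mem_filter, Finset.not_disjoint_iff]
        exact ⟨hFT, b, hbF, by simp [hball]⟩
      have := hball_trans hx1 (ih hxk)
      rwa [Nat.add_comm] at this

/-- Balls lift to a cover. -/
lemma hball_lift {W : Type} [Fintype W] [DecidableEq W] {π : W → V} {T' : Finset (Finset W)}
    {U' : Finset W} (h3 : ∀ F ∈ T, F.card = 3) (h3' : ∀ F ∈ T', F.card = 3)
    (hU' : ∀ F ∈ T', F ⊆ U') (himg : ∀ F' ∈ T', F'.image π ∈ T)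
    (hlift : ∀ a' ∈ U', ∀ F ∈ T, π a' ∈ F → ∃! F', F' ∈ T' ∧ a' ∈ F' ∧ F'.image π = F)
    {a' : W} (ha' : a' ∈ U') (k : ℕ) :
    (hball T' a' k).1.image π = (hball T (π a') k).1 ∧
      (hball T' a' k).2.image (fun F => F.image π) = (hball T (π a') k).2 ∧
      (htree T k (π a') →
        Set.InjOn π ((hball T' a' k).1 : Set W) ∧
        Set.InjOn (fun F : Finset W => F.image π) ((hball T' a' k).2 : Set (Finset W))) := by
  induction k with
  | zero => simp [hball]
  | succ k ih =>
    obtain ⟨ih1, ih2, ih3⟩ := ih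
    have e2 : (hball T' a' (k + 1)).2.image (fun F => F.image π) =
        (hball T (π a') (k + 1)).2 := by
      ext F
      simp only [hball_two_succ, Finset.mem_image, Finset.mem_filter, Finset.not_disjoint_iff,
        ← ih1]
      constructor
      · rintro ⟨F', ⟨hF', x, hx, hxk⟩, rfl⟩
        exact ⟨himg F' hF', π x, Finset.mem_image_of_mem π hx, x, hxk, rfl⟩
      · rintro ⟨hF, y, hy, x, hx, rfl⟩
        obtain ⟨F', ⟨hF', hxF', hFF⟩, -⟩ := hlift x (hball_subset_pts hU' ha' k hx) F hF hy
        exact ⟨F', ⟨hF', x, hxF', hx⟩, hFF⟩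
    have e1 : (hball T' a' (k + 1)).1.image π = (hball T (π a') (k + 1)).1 := by
      rw [hball_one_succ, hball_one_succ, Finset.image_union, ih1, ← e2]
      congr 1
      ext x
      simp only [Finset.mem_image, Finset.mem_biUnion, id_eq]
      constructor
      · rintro ⟨w, ⟨F', hF', hw⟩, rfl⟩
        exact ⟨F'.image π, ⟨F', hF', rfl⟩, Finset.mem_image_of_mem π hw⟩
      · rintro ⟨F, ⟨F', hF', rfl⟩, hx⟩
        obtain ⟨w, hw, rfl⟩ := Finset.mem_image.1 hx
        exact ⟨w, ⟨F', hF', hw⟩, rfl⟩
    refine ⟨e1, e2, fun ht => ?_⟩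
    obtain ⟨htk, hnew⟩ := tree_step h3 ht
    obtain ⟨hinj1, hinj2⟩ := ih3 htk
    have i2 : Set.InjOn (fun F : Finset W => F.image π)
        ((hball T' a' (k + 1)).2 : Set (Finset W)) := by
      intro F1 hF1 F2 hF2 he
      simp only [Finset.mem_coe, hball_two_succ, Finset.mem_filter,
        Finset.not_disjoint_iff] at hF1 hF2
      obtain ⟨hT1, x1, hx1, hxk1⟩ := hF1
      obtain ⟨hT2, x2, hx2, hxk2⟩ := hF2
      dsimp only at he
      have hπ2 : π x2 ∈ F1.image π := he ▸ Finset.mem_image_of_mem π hx2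
      have hmem : F1.image π ∈ (hball T (π a') (k + 1)).2 := by
        rw [← e2]
        refine Finset.mem_image_of_mem _ ?_
        rw [hball_two_succ, Finset.mem_filter, Finset.not_disjoint_iff]
        exact ⟨hT1, x1, hx1, hxk1⟩
      have key : ∀ x, x ∈ (hball T' a' k).1 → π x ∈ F1.image π → x ∈ F1 → x ∈ F2 → F1 = F2 :=
        fun x hxk hπ ha hb => (hlift x (hball_subset_pts hU' ha' k hxk) _ (himg F1 hT1) hπ).unique
          ⟨hT1, ha, rfl⟩ ⟨hT2, hb, he.symm⟩
      by_cases hold : F1.image π ∈ (hball T (π a') k).2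
      · rw [← ih2] at hold
        obtain ⟨F0, hF0, he0⟩ := Finset.mem_image.1 hold
        have hsub := hball_two_subset_one hF0
        have hT0 : F0 ∈ T' := by
          cases k with
          | zero => simp [hball] at hF0
          | succ j => exact (Finset.mem_filter.1 hF0).1
        have get : ∀ F x, F ∈ T' → x ∈ F → x ∈ (hball T' a' k).1 →
            F.image π = F1.image π → F = F0 := by
          intro F x hF hx hxk hFe
          have hπ : π x ∈ F0.image π := by
            rw [he0, ← hFe]; exact Finset.mem_image_of_mem π hx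
          obtain ⟨z, hz, hzx⟩ := Finset.mem_image.1 hπ
          have : z = x := hinj1 (hsub hz) hxk hzx
          subst this
          exact (hlift z (hball_subset_pts hU' ha' k hxk) _ (himg F hF)
            (Finset.mem_image_of_mem π hx)).unique ⟨hF, hx, rfl⟩ ⟨hT0, hz, he0.trans hFe.symm⟩
        rw [get F1 x1 hT1 hx1 hxk1 rfl, get F2 x2 hT2 hx2 hxk2 he.symm]
      · have hxx : x1 = x2 := hinj1 hxk1 hxk2 (hnew _ hmem hold _ (Finset.mem_image_of_mem π hx1) _
          hπ2 (ih1 ▸ Finset.mem_image_of_mem π hxk1) (ih1 ▸ Finset.mem_image_of_mem π hxk2))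
        subst hxx
        exact key x1 hxk1 (Finset.mem_image_of_mem π hx1) hx1 hx2
    refine ⟨Finset.card_image_iff.1 (le_antisymm Finset.card_image_le ?_), i2⟩
    have h1 := hball_card_le_two h3' a' (k + 1)
    have h2 : (hball T (π a') (k + 1)).2.card = (hball T' a' (k + 1)).2.card := by
      rw [← e2, Finset.card_image_of_injOn i2]
    unfold htree at ht
    rw [e1, ht, h2]
    exact h1

end Vale.Agent.P046.Full
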