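import Vale.Agent.P046.Full.Local.Generic

/-!
P046, the exact constant, late phase: a graph as the hypergraph of its triangles on its edges.
-/

namespace Vale.Agent.P046.Full

open Finset
open Vale.Agent.P046

/-- The triangles of `G` as triples of edges. -/
def triH {n : ℕ} (G : Gr n) : Finset (Finset (Finset (Fin n))) := (tri G).image sides

lemma biUnion_sides {n : ℕ} {E : Finset (Fin n)} (h : E.card = 3) : (sides E).biUnion id = E := by
  ext x
  simp only [Finset.mem_biUnion, mem_sides, id_eq]
  constructor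
  · rintro ⟨g, ⟨hg, -⟩, hx⟩
    exact hg hx
  · intro hx
    obtain ⟨y, hy, hne⟩ := Finset.exists_mem_ne (by omega : 1 < E.card) x
    exact ⟨{x, y}, ⟨by simp [Finset.insert_subset_iff, hx, hy], Finset.card_pair hne.symm⟩,
      by simp⟩

lemma sides_injOn {n : ℕ} (G : Gr n) : Set.InjOn sides (tri G : Set (Finset (Fin n))) := by
  intro E hE F hF h
  rw [← biUnion_sides (mem_tri.1 hE).1, ← biUnion_sides (mem_tri.1 hF).1, h]

lemma triH_linear {n : ℕ} (G : Gr n) : Linear3 (triH G) := by
  constructor
  · intro F hF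
    obtain ⟨E, hE, rfl⟩ := Finset.mem_image.1 hF
    exact card_sides (mem_tri.1 hE).1
  · intro F hF F' hF' hne
    obtain ⟨E, hE, rfl⟩ := Finset.mem_image.1 hF
    obtain ⟨E', hE', rfl⟩ := Finset.mem_image.1 hF'
    refine Finset.card_le_one.2 fun g hg h hh => ?_
    rw [Finset.mem_inter] at hg hh
    exact shared_unique (mem_tri.1 hE).1 (mem_tri.1 hE').1 (fun e => hne (e ▸ rfl)) hg.1 hg.2
      hh.1 hh.2

lemma triH_subset {n : ℕ} (G : Gr n) : ∀ F ∈ triH G, F ⊆ G := by
  intro F hF
  obtain ⟨E, hE, rfl⟩ := Finset.mem_image.1 hF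
  exact (mem_tri.1 hE).2

lemma triH_filter {n : ℕ} (G : Gr n) (p : Finset (Finset (Fin n)) → Prop) [DecidablePred p] :
    (triH G).filter p = ((tri G).filter (fun E => p (sides E))).image sides :=
  Finset.filter_image

lemma hdeg_triH {n : ℕ} (G : Gr n) (g : Finset (Fin n)) : hdeg (triH G) g = deg G g := by
  rw [hdeg, triH_filter, Finset.card_image_of_injOn ((sides_injOn G).mono (Finset.filter_subset _ _))]
  rfl

lemma hball_triH {n : ℕ} (G : Gr n) (g : Finset (Fin n)) (R : ℕ) :
    hball (triH G) g R = ((ball G g R).1, (ball G g R).2.image sides) := by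
  induction R with
  | zero => simp [hball, ball]
  | succ R ih =>
    simp only [hball, ball, ih, triH_filter, Finset.image_biUnion]
    rfl

lemma ball_two_subset {n : ℕ} (G : Gr n) (g : Finset (Fin n)) (R : ℕ) :
    (ball G g R).2 ⊆ tri G := by
  cases R with
  | zero => simp [ball]
  | succ R => exact Finset.filter_subset _ _

lemma htree_triH {n : ℕ} (G : Gr n) (g : Finset (Fin n)) (R : ℕ) :
    htree (triH G) R g ↔ treeBall G R g := by
  unfold htree treeBall
  rw [hball_triH]
  dsimp only
  rw [Finset.card_image_of_injOn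
    ((sides_injOn G).mono (Finset.coe_subset.2 (ball_two_subset G g R)))]

/-- The cavity system of a graph on triples of edges. -/
def Jh {n : ℕ} (J : Finset (Fin n) → Finset (Fin n) → ℝ → ℝ) (a : Finset (Fin n))
    (F : Finset (Finset (Fin n))) : ℝ → ℝ := J a (F.biUnion id)

lemma isHCav_Jh {n : ℕ} {G : Gr n} {J : Finset (Fin n) → Finset (Fin n) → ℝ → ℝ}
    (hJ : IsCav G J) : IsHCav (triH G) (Jh J) := by
  intro a F hF ha
  obtain ⟨E, hE, rfl⟩ := Finset.mem_image.1 hF
  have hb := biUnion_sides (mem_tri.1 hE).1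
  obtain ⟨h0, h⟩ := hJ a E hE ha
  simp only [Jh, hb]
  refine ⟨h0, fun s hs => ⟨(h s hs).1, ?_⟩⟩
  have e : ∀ b, hz (triH G) (Jh J) b (sides E) s = zOf G J b E s := by
    intro b
    unfold hz zOf
    rw [triH_filter, Finset.prod_image ((sides_injOn G).mono (Finset.filter_subset _ _))]
    refine Finset.prod_congr ?_ fun E' hE' => ?_
    · refine Finset.filter_congr fun E' hE' => and_congr_right fun _ => not_congr ?_
      exact ⟨fun h => sides_injOn G hE' hE h, fun h => h ▸ rfl⟩
    · simp only [Jh, biUnion_sides (mem_tri.1 (Finset.mem_filter.1 hE').1).1]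
  simpa only [e] using (h s hs).2

lemma hcavTot_triH {n : ℕ} (G : Gr n) (J : Finset (Fin n) → Finset (Fin n) → ℝ → ℝ) (t : ℝ) :
    hcavTot (triH G) G (Jh J) t = cavTot G J t := by
  refine Finset.sum_congr rfl fun a _ => ?_
  rw [triH_filter, Finset.prod_image ((sides_injOn G).mono (Finset.filter_subset _ _))]
  exact Finset.prod_congr rfl fun E hE => by
    simp only [Jh, biUnion_sides (mem_tri.1 (Finset.mem_filter.1 hE).1).1]

lemma expAt_eq_semi_hstep {n : ℕ} (t : ℝ) (f : Gr n → ℝ) (G : Gr n) :
    expAt t f G = semi (hstep (triH G)) t f G := by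
  refine semi_congr_gen (rstep (n := n)) (hstep (triH G)) {H | H ⊆ G} ?_ ?_ t f
    (Finset.Subset.refl G)
  · intro E H hH
    simp only [Set.mem_ofPred_eq, rstep] at hH ⊢
    split
    · exact (rem_subset H E).trans hH
    · exact hH
  · intro g H hH
    rw [gen_apply, gen_apply]
    simp only [hstep]
    rw [Finset.sum_coe_sort (triH G)
      (fun F => g (if F ⊆ H then H \ F else H) - g H), triH, Finset.sum_image (sides_injOn G)]
    rw [← Finset.sum_subset (Finset.subset_univ (tri G)) (fun E _ hE => ?_)]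
    · refine Finset.sum_congr rfl fun E hE => ?_
      have : E ∈ tri H ↔ sides E ⊆ H := by
        rw [mem_tri]; exact ⟨fun h => h.2, fun h => ⟨(mem_tri.1 hE).1, h⟩⟩
      simp only [rstep, rem, this]
    · simp only [rstep]
      rw [if_neg, sub_self]
      intro h
      obtain ⟨h3, hs⟩ := mem_tri.1 h
      exact hE (mem_tri.2 ⟨h3, hs.trans hH⟩)

end Vale.Agent.P046.Full
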