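import Vale.Agent.P046.Full.Local.Trunc
import Vale.Agent.P046.Full.Local.Ball

/-!
P046, the exact constant, late phase: removal on a bounded degree hypergraph is close to the cavity
prediction, from growth, locality, covers and the hierarchy.
-/

namespace Vale.Agent.P046.Full

open Finset

variable {V : Type} [Fintype V] [DecidableEq V]

instance decidableHtree (T : Finset (Finset V)) (R : ℕ) (a : V) : Decidable (htree T R a) :=
  inferInstanceAs (Decidable ((hball T a R).1.card = 2 * (hball T a R).2.card + 1))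

lemma sched_fst_nonneg {a₀ t k₀ : ℝ} (ha : 0 < a₀) (ht : 0 ≤ t) :
    ∀ p ∈ sched a₀ t k₀, 0 ≤ p.1 := by
  intro p hp
  simp only [sched, List.mem_map, List.mem_range] at hp
  obtain ⟨i, hi, rfl⟩ := hp
  have hlt : (i : ℝ) < Real.log (1 + t / a₀) / Real.log (51 / 50) := Nat.lt_ceil.1 hi
  have hl : (0 : ℝ) < Real.log (51 / 50) := Real.log_pos (by norm_num)
  rw [lt_div_iff₀ hl] at hlt
  have hpow : (51 / 50 : ℝ) ^ i < 1 + t / a₀ := by
    have h2 : Real.log ((51 / 50 : ℝ) ^ i) < Real.log (1 + t / a₀) := by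
      rwa [Real.log_pow]
    exact (Real.log_lt_log_iff (by positivity) (by positivity)).1 h2
  simp only [sub_nonneg, le_min_iff]
  constructor
  · rw [pow_succ]
    nlinarith [mul_pos ha (pow_pos (by norm_num : (0 : ℝ) < 51 / 50) i)]
  · have := mul_le_mul_of_nonneg_left hpow.le ha.le
    rwa [mul_add, mul_one, mul_div_cancel₀ _ ha.ne'] at this

/-- The points left by removal are a subset of the start. -/
lemma semi_hstep_card (T : Finset (Finset V)) (t : ℝ) (U : Finset V) :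
    semi (hstep T) t (fun H => (H.card : ℝ)) U =
      ∑ a ∈ U, semi (hstep T) t (fun H => if a ∈ H then (1 : ℝ) else 0) U := by
  have h1 : semi (hstep T) t (fun H => (H.card : ℝ)) U =
      semi (hstep T) t (∑ a ∈ U, fun H => if a ∈ H then (1 : ℝ) else 0) U :=
    semi_congr _ {H | H ⊆ U}
      (fun F H hH => by
        simp only [Set.mem_ofPred_eq, hstep] at hH ⊢
        split
        · exact Finset.sdiff_subset.trans hH
        · exact hH) t
      (fun H hH => by rw [Finset.sum_apply]; exact card_eq_sum_ite hH) (Finset.Subset.refl U)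
  rw [h1, map_sum, Finset.sum_apply]

/-- The cavity prediction of a hypergraph. -/
noncomputable def hcavTot (T : Finset (Finset V)) (U : Finset V) (J : V → Finset V → ℝ → ℝ)
    (t : ℝ) : ℝ :=
  ∑ a ∈ U, ∏ F ∈ T.filter (fun F => a ∈ F), (1 - J a F t)

lemma hprod_mem {T : Finset (Finset V)} {J : V → Finset V → ℝ → ℝ} (hJ : IsHCav T J) (a : V)
    {t : ℝ} (ht : 0 ≤ t) :
    ∏ F ∈ T.filter (fun F => a ∈ F), (1 - J a F t) ∈ Set.Icc (0 : ℝ) 1 := by
  have h : ∀ F ∈ T.filter (fun F => a ∈ F), 0 ≤ 1 - J a F t ∧ 1 - J a F t ≤ 1 := by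
    intro F hF
    obtain ⟨h1, h2⟩ := Finset.mem_filter.1 hF
    obtain ⟨⟨h3, h4⟩, -⟩ := (hJ a F h1 h2).2 t ht
    constructor <;> linarith [Real.exp_pos (-t)]
  exact ⟨Finset.prod_nonneg fun F hF => (h F hF).1,
    Finset.prod_le_one (fun F hF => (h F hF).1) (fun F hF => (h F hF).2)⟩

/-- The mean left by truncated removal against the cavity prediction. -/
lemma mean_estimate (hloc : LocalityStmt) (hcov : CoverStmt) (hhier : HierarchyStmt)
    {C : ℝ} (hgrow : ∀ (V : Type) [Fintype V] [DecidableEq V]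
      (T : Finset (Finset V)) (U : Finset V), Linear3 T → (∀ F ∈ T, F ⊆ U) →
      ∀ a₀ t k₀ : ℝ, 0 < a₀ → 0 < t → 1 ≤ k₀ →
      |semi (hstep T) t (fun H => (H.card : ℝ)) U -
          truncExp T (sched a₀ t k₀) (fun H => (H.card : ℝ)) U| ≤
        C * (k₀ + Real.log (1 + t / a₀) + 1) ^ 2 * Real.exp (-(k₀ * a₀ / (a₀ + t))) * hmom T U a₀)
    (T : Finset (Finset V)) (U : Finset V) (hT : Linear3 T) (hU : ∀ F ∈ T, F ⊆ U)
    {a₀ t k₀ : ℝ} (ha₀ : 0 < a₀) (ht : 0 < t) (hk : 1 ≤ k₀) {R : ℕ}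
    (hR : depth (sched a₀ t k₀) + 1 ≤ R) {J : V → Finset V → ℝ → ℝ} (hJ : IsHCav T J) :
    |∑ a ∈ U, survP T (sched a₀ t k₀) U a - hcavTot T U J t| ≤
      C * (k₀ + Real.log (1 + t / a₀) + 1) ^ 2 * Real.exp (-(k₀ * a₀ / (a₀ + t))) * hmom T U a₀ +
        ((U.filter (fun a => ¬htree T R a)).card : ℝ) + 1 := by
  classical
  set s := sched a₀ t k₀
  have hs := sched_fst_nonneg (k₀ := k₀) ha₀ ht.le
  set Dm : ℕ := U.sup (hdeg T) with hDm
  obtain ⟨M, hM⟩ := hhier t (1 / ((U.card : ℝ) + 1)) Dm ht (by positivity)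
  obtain ⟨N, q, π, T', U', hq, hT', hU', hπU, hfib, himg, hlift, htr⟩ :=
    hcov V T U hT hU (max M R)
  have hdeg' : ∀ a' ∈ U', hdeg T' a' = hdeg T (π a') := by
    intro a' ha'
    refine Finset.card_nbij' (fun F' => F'.image π)
      (fun F => if h : F ∈ T ∧ π a' ∈ F then (hlift a' ha' F h.1 h.2).choose else ∅) ?_ ?_ ?_ ?_
    · intro F' hF'
      simp only [Finset.mem_coe, Finset.mem_filter] at hF' ⊢
      exact ⟨himg F' hF'.1, Finset.mem_image_of_mem π hF'.2⟩
    · intro F hF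
      simp only [Finset.mem_coe, Finset.mem_filter] at hF ⊢
      rw [dif_pos hF]
      exact ⟨(hlift a' ha' F hF.1 hF.2).choose_spec.1.1,
        (hlift a' ha' F hF.1 hF.2).choose_spec.1.2.1⟩
    · intro F' hF'
      simp only [Finset.mem_coe, Finset.mem_filter] at hF'
      dsimp only
      rw [dif_pos ⟨himg F' hF'.1, Finset.mem_image_of_mem π hF'.2⟩]
      exact ((hlift a' ha' _ (himg F' hF'.1) (Finset.mem_image_of_mem π hF'.2)).choose_spec.2 F'
        ⟨hF'.1, hF'.2, rfl⟩).symm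
    · intro F hF
      simp only [Finset.mem_coe, Finset.mem_filter] at hF
      dsimp only
      rw [dif_pos hF]
      exact (hlift a' ha' F hF.1 hF.2).choose_spec.1.2.2
  set J' : Fin N → Finset (Fin N) → ℝ → ℝ := fun a' F' => J (π a') (F'.image π) with hJ'def
  have hpr : ∀ a' ∈ U', ∀ (p : Finset V → Prop) [DecidablePred p] (h : Finset V → ℝ),
      ∏ E ∈ T'.filter (fun E => a' ∈ E ∧ p (E.image π)), h (E.image π) =
        ∏ E ∈ T.filter (fun E => π a' ∈ E ∧ p E), h E := by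
    intro a' ha' p _ h
    refine Finset.prod_bij' (fun E _ => E.image π)
      (fun F hF => (hlift a' ha' F (Finset.mem_filter.1 hF).1 (Finset.mem_filter.1 hF).2.1).choose)
      ?_ ?_ ?_ ?_ ?_
    · intro E hE
      simp only [Finset.mem_filter] at hE ⊢
      exact ⟨himg E hE.1, Finset.mem_image_of_mem π hE.2.1, hE.2.2⟩
    · intro F hF
      obtain ⟨⟨h1, h2, h3⟩, -⟩ := (hlift a' ha' F (Finset.mem_filter.1 hF).1
        (Finset.mem_filter.1 hF).2.1).choose_spec
      simp only [Finset.mem_filter]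
      exact ⟨h1, h2, by rw [h3]; exact (Finset.mem_filter.1 hF).2.2⟩
    · intro E hE
      simp only [Finset.mem_filter] at hE
      exact ((hlift a' ha' _ (himg E hE.1) (Finset.mem_image_of_mem π hE.2.1)).choose_spec.2 E
        ⟨hE.1, hE.2.1, rfl⟩).symm
    · intro F hF
      exact (hlift a' ha' F (Finset.mem_filter.1 hF).1 (Finset.mem_filter.1 hF).2.1).choose_spec.1.2.2
    · intro E hE
      rfl
  have hinjF : ∀ F' ∈ T', Set.InjOn π (F' : Set (Fin N)) := fun F' hF' =>
    Finset.card_image_iff.1 (by rw [hT.1 _ (himg F' hF'), hT'.1 _ hF'])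
  have hJ' : IsHCav T' J' := by
    intro a' F' hF' ha'
    obtain ⟨h0, h⟩ := hJ (π a') (F'.image π) (himg F' hF') (Finset.mem_image_of_mem π ha')
    refine ⟨h0, fun u hu => ⟨(h u hu).1, ?_⟩⟩
    have e : ∏ b ∈ (F'.image π).erase (π a'), hz T J b (F'.image π) u =
        ∏ b' ∈ F'.erase a', hz T' J' b' F' u := by
      have him : (F'.image π).erase (π a') = (F'.erase a').image π := by
        ext x
        simp only [Finset.mem_erase, Finset.mem_image]
        constructor
        · rintro ⟨hne, w, hw, rfl⟩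
          exact ⟨w, ⟨fun h => hne (h ▸ rfl), hw⟩, rfl⟩
        · rintro ⟨w, ⟨hne, hw⟩, rfl⟩
          exact ⟨fun h => hne (hinjF F' hF' hw ha' h), w, hw, rfl⟩
      rw [him, Finset.prod_image fun x hx y hy hxy =>
        hinjF F' hF' (Finset.mem_erase.1 hx).2 (Finset.mem_erase.1 hy).2 hxy]
      refine Finset.prod_congr rfl fun b hb => ?_
      have hbF := (Finset.mem_erase.1 hb).2
      have hbU : b ∈ U' := hU' F' hF' hbF
      unfold hz
      rw [← hpr b hbU (fun E => E ≠ F'.image π) (fun E => 1 - J (π b) E u)]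
      refine Finset.prod_congr ?_ fun _ _ => rfl
      ext E
      simp only [Finset.mem_filter]
      constructor
      · rintro ⟨hE, hbE, hne⟩
        exact ⟨hE, hbE, fun h => hne (h ▸ rfl)⟩
      · rintro ⟨hE, hbE, hne⟩
        refine ⟨hE, hbE, fun h => hne ?_⟩
        exact (hlift b hbU _ (himg F' hF') (Finset.mem_image_of_mem π hbF)).unique
          ⟨hE, hbE, h⟩ ⟨hF', hbF, rfl⟩
    simpa only [hJ'def, e] using (h u hu).2
  have hS2 : |∑ a' ∈ U', semi (hstep T') t (fun H => if a' ∈ H then (1 : ℝ) else 0) U' -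
      ∑ a' ∈ U', ∏ F ∈ T.filter (fun F => π a' ∈ F), (1 - J (π a') F t)| ≤
      (U'.card : ℝ) * (1 / ((U.card : ℝ) + 1)) := by
    rw [← Finset.sum_sub_distrib]
    refine (Finset.abs_sum_le_sum_abs _ _).trans ((Finset.sum_le_card_nsmul _ _ _ fun a' ha' => ?_).trans
      (by rw [nsmul_eq_mul]))
    have h := hM (Fin N) T' U' hT' hU'
      (fun a ha => by rw [hdeg' a ha]; exact Finset.le_sup (hπU a ha))
      (fun a ha => htree_mono hT'.1 (le_max_left _ _) (htr a ha)) J' hJ' a' ha'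
    have e := hpr a' ha' (fun _ => True) (fun E => 1 - J (π a') E t)
    simp only [and_true] at e
    simp only [hJ'def] at h
    rwa [e] at h
  have hS1 : |∑ a' ∈ U', survP T' s U' a' -
      ∑ a' ∈ U', semi (hstep T') t (fun H => if a' ∈ H then (1 : ℝ) else 0) U'| ≤
      C * (k₀ + Real.log (1 + t / a₀) + 1) ^ 2 * Real.exp (-(k₀ * a₀ / (a₀ + t))) *
        ((q : ℝ) * hmom T U a₀) := by
    have h := hgrow (Fin N) T' U' hT' hU' a₀ t k₀ ha₀ ht hk
    rw [semi_hstep_card, truncExp_card T' s hs, abs_sub_comm] at h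
    refine h.trans (le_of_eq ?_)
    congr 1
    unfold hmom
    rw [Finset.mul_sum, ← Finset.sum_fiberwise_of_maps_to hπU]
    refine Finset.sum_congr rfl fun a ha => ?_
    rw [Finset.sum_congr rfl (g := fun _ => Real.exp (a₀ * (hdeg T a : ℝ))) fun a' ha' => by
      obtain ⟨h1, h2⟩ := Finset.mem_filter.1 ha'
      rw [hdeg' a' h1, h2], Finset.sum_const, hfib a ha, nsmul_eq_mul]
  have hfibsum : ∀ f : V → ℝ, ∑ a' ∈ U', f (π a') = (q : ℝ) * ∑ a ∈ U, f a := by
    intro f
    rw [← Finset.sum_fiberwise_of_maps_to hπU, Finset.mul_sum]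
    refine Finset.sum_congr rfl fun a ha => ?_
    rw [Finset.sum_congr rfl (g := fun _ => f a) fun a' ha' => by
      rw [(Finset.mem_filter.1 ha').2], Finset.sum_const, hfib a ha, nsmul_eq_mul]
  have hS0 : |∑ a' ∈ U', survP T s U (π a') - ∑ a' ∈ U', survP T' s U' a'| ≤
      (q : ℝ) * ((U.filter (fun a => ¬htree T R a)).card : ℝ) := by
    have hb := hfibsum (fun a => if ¬htree T R a then (1 : ℝ) else 0)
    rw [Finset.sum_boole (R := ℝ) (fun a => ¬htree T R a) U] at hb
    rw [← hb, ← Finset.sum_sub_distrib]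
    refine (Finset.abs_sum_le_sum_abs _ _).trans (Finset.sum_le_sum fun a' ha' => ?_)
    split
    · have h1 := survP_mem T s hs U (π a')
      have h2 := survP_mem T' s hs U' a'
      simp only [Set.mem_Icc] at h1 h2
      rw [abs_le]
      constructor <;> linarith
    · rename_i hb
      push Not at hb
      obtain ⟨-, e2, e3⟩ := hball_lift hT.1 hT'.1 hU' himg hlift ha' (depth s + 1)
      have hinj := (e3 (htree_mono hT.1 hR hb)).1
      have h := hloc.1 (Fin N) V T' U' T U hT' hT hU' hU s hs a' ha' π (hπU a' ha') hinj e2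
      rw [show survP T s U (π a') = survP T' s U' a' from h.symm, sub_self, abs_zero]
  have hcardU' : (U'.card : ℝ) = (q : ℝ) * U.card := by
    simpa using hfibsum (fun _ => 1)
  have hmain : |∑ a' ∈ U', survP T s U (π a') -
      ∑ a' ∈ U', ∏ F ∈ T.filter (fun F => π a' ∈ F), (1 - J (π a') F t)| ≤
      (q : ℝ) * (C * (k₀ + Real.log (1 + t / a₀) + 1) ^ 2 * Real.exp (-(k₀ * a₀ / (a₀ + t))) *
        hmom T U a₀ + ((U.filter (fun a => ¬htree T R a)).card : ℝ) + 1) := by
    have h3 : (U'.card : ℝ) * (1 / ((U.card : ℝ) + 1)) ≤ q := by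
      rw [hcardU', mul_one_div, div_le_iff₀ (by positivity)]
      nlinarith [Nat.cast_nonneg (α := ℝ) q]
    have := abs_sub_le (∑ a' ∈ U', survP T s U (π a')) (∑ a' ∈ U', survP T' s U' a')
      (∑ a' ∈ U', ∏ F ∈ T.filter (fun F => π a' ∈ F), (1 - J (π a') F t))
    have := abs_sub_le (∑ a' ∈ U', survP T' s U' a')
      (∑ a' ∈ U', semi (hstep T') t (fun H => if a' ∈ H then (1 : ℝ) else 0) U')
      (∑ a' ∈ U', ∏ F ∈ T.filter (fun F => π a' ∈ F), (1 - J (π a') F t))
    nlinarith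
  rw [hfibsum (survP T s U), hfibsum (fun a => ∏ F ∈ T.filter (fun F => a ∈ F), (1 - J a F t)),
    ← mul_sub, abs_mul, Nat.abs_cast] at hmain
  exact le_of_mul_le_mul_left hmain (Nat.cast_pos.2 hq)

/-- Removal against the cavity prediction on one hypergraph. -/
theorem local_estimate (hgrow : GrowthStmt) (hloc : LocalityStmt) (hcov : CoverStmt)
    (hhier : HierarchyStmt) :
    ∃ C : ℝ, 0 ≤ C ∧ ∀ (V : Type) [Fintype V] [DecidableEq V]
      (T : Finset (Finset V)) (U : Finset V), Linear3 T → (∀ F ∈ T, F ⊆ U) →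
      ∀ a₀ t k₀ : ℝ, 0 < a₀ → 0 < t → 1 ≤ k₀ → ∀ R Dm : ℕ, depth (sched a₀ t k₀) + 1 ≤ R →
      (∀ a ∈ U, hdeg T a ≤ Dm) → ∀ J, IsHCav T J → ∀ lam : ℝ, 0 < lam →
      semi (hstep T) t (fun H => |(H.card : ℝ) - hcavTot T U J t|) U ≤
        C * (k₀ + Real.log (1 + t / a₀) + 1) ^ 2 * Real.exp (-(k₀ * a₀ / (a₀ + t))) * hmom T U a₀ +
          (U.card : ℝ) * ((1 + 3 * Dm : ℕ) : ℝ) ^ (2 * R) / lam + lam +
          ((U.filter (fun a => ¬htree T R a)).card : ℝ) + 1 := by
  classical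
  obtain ⟨C₀, hC⟩ := hgrow
  refine ⟨2 * max C₀ 0, by positivity, fun V _ _ T U hT hU a₀ t k₀ ha₀ ht hk R Dm hR hD J hJ lam hlam => ?_⟩
  set P : ℝ := (k₀ + Real.log (1 + t / a₀) + 1) ^ 2 * Real.exp (-(k₀ * a₀ / (a₀ + t))) *
    hmom T U a₀ with hPdef
  have hP : 0 ≤ P := mul_nonneg (mul_nonneg (sq_nonneg _) (Real.exp_pos _).le)
    (Finset.sum_nonneg fun a _ => (Real.exp_pos _).le)
  have hA := (hC V T U hT hU a₀ t k₀ ha₀ ht hk (hcavTot T U J t)).1
  have hs := sched_fst_nonneg (k₀ := k₀) ha₀ ht.le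
  set s := sched a₀ t k₀
  have hB := mean_estimate hloc hcov hhier
    (fun V _ _ T U hT hU a₀ t k₀ ha₀ ht hk => (hC V T U hT hU a₀ t k₀ ha₀ ht hk 0).2)
    T U hT hU ha₀ ht hk hR hJ
  set r := depth s + 1
  let near : V → Finset V := fun a => U.filter fun b =>
    ¬Disjoint (hball T a r).1 (hball T b r).1
  have hD' := truncExp_dev_le T s hs U near (fun a ha b hb hn => by
      refine hloc.2 V T U hT hU s hs a ha b hb ?_
      by_contra h
      exact hn (Finset.mem_filter.2 ⟨hb, h⟩))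
    (B := ((1 + 3 * Dm : ℕ) : ℝ) ^ (2 * R)) (fun a ha => by
      have h1 : near a ⊆ (hball T a (r + r)).1 := by
        intro b hb
        obtain ⟨-, hb⟩ := Finset.mem_filter.1 hb
        obtain ⟨x, hx1, hx2⟩ := Finset.not_disjoint_iff.1 hb
        exact hball_trans hx1 (hball_symm hx2)
      have h2 := ((Finset.card_le_card h1).trans (hball_card_le_pow hT.1 hU hD ha (r + r))).trans
        (Nat.pow_le_pow_right (by omega) (show r + r ≤ 2 * R by omega))
      exact_mod_cast h2) hlam (hcavTot T U J t)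
  rw [mul_assoc, mul_assoc C₀, ← mul_assoc ((k₀ + Real.log (1 + t / a₀) + 1) ^ 2), ← hPdef] at hA
  rw [mul_assoc, mul_assoc C₀, ← mul_assoc ((k₀ + Real.log (1 + t / a₀) + 1) ^ 2), ← hPdef] at hB
  rw [mul_assoc, mul_assoc (2 * max C₀ 0), ← mul_assoc ((k₀ + Real.log (1 + t / a₀) + 1) ^ 2),
    ← hPdef]
  have h1 := (abs_le.1 hA).2
  have h2 := mul_le_mul_of_nonneg_right (le_max_left C₀ 0) hP
  linarith

end Vale.Agent.P046.Full
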