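import Vale.Agent.P046.Full.ThreeBase

/-!
P046, the exact constant, late phase: truncated removal is a positive normalised linear functional
carried by the subsets of the start, and the variance bound by the pairs with meeting balls.
-/

namespace Vale.Agent.P046.Full

open Finset

variable {V : Type} [Fintype V] [DecidableEq V] (T : Finset (Finset V))

lemma truncExp_add (s : List (ℝ × ℕ)) (f g : Finset V → ℝ) (H : Finset V) :
    truncExp T s (fun K => f K + g K) H = truncExp T s f H + truncExp T s g H := by
  induction s generalizing H with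
  | nil => simp [truncExp]
  | cons p rest ih =>
    obtain ⟨Δ, k⟩ := p
    simp only [truncExp, ih]
    exact congr_fun ((semi (tstep T k) Δ).map_add _ _) _

lemma truncExp_smul (s : List (ℝ × ℕ)) (c : ℝ) (f : Finset V → ℝ) (H : Finset V) :
    truncExp T s (fun K => c * f K) H = c * truncExp T s f H := by
  induction s generalizing H with
  | nil => simp [truncExp]
  | cons p rest ih =>
    obtain ⟨Δ, k⟩ := p
    simp only [truncExp, ih]
    exact congr_fun ((semi (tstep T k) Δ).map_smul c _) _

lemma truncExp_const (s : List (ℝ × ℕ)) (c : ℝ) (H : Finset V) :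
    truncExp T s (fun _ => c) H = c := by
  induction s generalizing H with
  | nil => simp [truncExp]
  | cons p rest ih =>
    obtain ⟨Δ, k⟩ := p
    simp only [truncExp, ih, semi_const]

lemma truncExp_sum {α : Type*} (s : List (ℝ × ℕ)) (A : Finset α) (f : α → Finset V → ℝ)
    (H : Finset V) :
    truncExp T s (fun K => ∑ a ∈ A, f a K) H = ∑ a ∈ A, truncExp T s (f a) H := by
  classical
  induction A using Finset.induction_on with
  | empty => simpa using truncExp_const T s 0 H
  | insert a A ha ih => simp only [Finset.sum_insert ha, truncExp_add, ih]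

lemma truncExp_mono (s : List (ℝ × ℕ)) (hs : ∀ p ∈ s, 0 ≤ p.1) {f g : Finset V → ℝ}
    {U : Finset V} (h : ∀ K ⊆ U, f K ≤ g K) {H : Finset V} (hH : H ⊆ U) :
    truncExp T s f H ≤ truncExp T s g H := by
  induction s generalizing H with
  | nil => exact h H hH
  | cons p rest ih =>
    obtain ⟨Δ, k⟩ := p
    have hΔ : 0 ≤ Δ := hs (Δ, k) List.mem_cons_self
    simp only [truncExp]
    classical
    set A : TState V k → ℝ := fun x =>
      truncExp T rest f (x.2.1.filter (fun a => (x.2.2 a : ℕ) < k)) with hA
    set B : TState V k → ℝ := fun x =>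
      truncExp T rest g (x.2.1.filter (fun a => (x.2.2 a : ℕ) < k)) with hB
    set S : Set (TState V k) := {x | x.2.1 ⊆ U}
    have hS : ∀ F, ∀ x ∈ S, tstep T k F x ∈ S := by
      intro F x hx
      simp only [S, Set.mem_ofPred_eq, tstep] at hx ⊢
      split
      · dsimp only
        split
        · exact Finset.sdiff_subset.trans hx
        · exact hx
      · exact hx
    have h1 := semi_congr (tstep T k) S hS Δ (f := A) (g := fun x => min (A x) (B x))
      (fun x hx => (min_eq_left (ih (fun p hp => hs p (List.mem_cons_of_mem _ hp))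
        ((Finset.filter_subset _ _).trans hx))).symm)
      (x := (H, H, fun _ => 0)) hH
    rw [h1]
    exact semi_mono _ hΔ (fun x => min_le_right _ _) _

lemma truncExp_congr (s : List (ℝ × ℕ)) (hs : ∀ p ∈ s, 0 ≤ p.1) {f g : Finset V → ℝ}
    {U : Finset V} (h : ∀ K ⊆ U, f K = g K) {H : Finset V} (hH : H ⊆ U) :
    truncExp T s f H = truncExp T s g H :=
  le_antisymm (truncExp_mono T s hs (fun K hK => (h K hK).le) hH)
    (truncExp_mono T s hs (fun K hK => (h K hK).ge) hH)

lemma card_eq_sum_ite {U K : Finset V} (h : K ⊆ U) :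
    (K.card : ℝ) = ∑ a ∈ U, if a ∈ K then (1 : ℝ) else 0 := by
  rw [Finset.sum_boole, Finset.filter_mem_eq_inter, Finset.inter_eq_right.2 h]

/-- The chance that `a` is left by truncated removal. -/
noncomputable def survP (s : List (ℝ × ℕ)) (U : Finset V) (a : V) : ℝ :=
  truncExp T s (fun K => if a ∈ K then 1 else 0) U

lemma survP_mem (s : List (ℝ × ℕ)) (hs : ∀ p ∈ s, 0 ≤ p.1) (U : Finset V) (a : V) :
    survP T s U a ∈ Set.Icc (0 : ℝ) 1 := by
  constructor
  · have := truncExp_mono T s hs (f := fun _ => (0 : ℝ))
      (g := fun K => if a ∈ K then 1 else 0) (U := U)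
      (fun K _ => by split <;> norm_num) (Finset.Subset.refl U)
    rwa [truncExp_const] at this
  · have := truncExp_mono T s hs (f := fun K => if a ∈ K then (1 : ℝ) else 0)
      (g := fun _ => (1 : ℝ)) (U := U)
      (fun K _ => by split <;> norm_num) (Finset.Subset.refl U)
    rwa [truncExp_const] at this

lemma truncExp_card (s : List (ℝ × ℕ)) (hs : ∀ p ∈ s, 0 ≤ p.1) (U : Finset V) :
    truncExp T s (fun K => (K.card : ℝ)) U = ∑ a ∈ U, survP T s U a := by
  rw [truncExp_congr T s hs (g := fun K => ∑ a ∈ U, if a ∈ K then (1 : ℝ) else 0)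
    (fun K hK => card_eq_sum_ite hK) (Finset.Subset.refl U), truncExp_sum]
  rfl

/-- Concentration: if the survivals of `a` and `b` are independent unless `near a b`, the number
left is within the count of near pairs of any prediction, up to the prediction of its mean. -/
lemma truncExp_dev_le (s : List (ℝ × ℕ)) (hs : ∀ p ∈ s, 0 ≤ p.1) (U : Finset V)
    (near : V → Finset V) (hind : ∀ a ∈ U, ∀ b ∈ U, b ∉ near a →
      truncExp T s (fun K => if a ∈ K ∧ b ∈ K then 1 else 0) U =
        survP T s U a * survP T s U b)
    {B lam : ℝ} (hB : ∀ a ∈ U, ((near a).card : ℝ) ≤ B) (hlam : 0 < lam) (c : ℝ) :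
    truncExp T s (fun K => |(K.card : ℝ) - c|) U ≤
      (U.card : ℝ) * B / lam + lam + |∑ a ∈ U, survP T s U a - c| := by
  classical
  set m : ℝ := ∑ a ∈ U, survP T s U a with hm
  have hsq : truncExp T s (fun K => (K.card : ℝ) * K.card) U =
      ∑ a ∈ U, ∑ b ∈ U, truncExp T s (fun K => if a ∈ K ∧ b ∈ K then 1 else 0) U := by
    rw [truncExp_congr T s hs
      (g := fun K => ∑ a ∈ U, ∑ b ∈ U, if a ∈ K ∧ b ∈ K then (1 : ℝ) else 0)
      (fun K hK => ?_) (Finset.Subset.refl U), truncExp_sum]
    · exact Finset.sum_congr rfl fun a _ => truncExp_sum T s U _ _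
    · rw [card_eq_sum_ite hK, Finset.sum_mul_sum]
      refine Finset.sum_congr rfl fun a _ => Finset.sum_congr rfl fun b _ => ?_
      by_cases ha : a ∈ K <;> by_cases hb : b ∈ K <;> simp [ha, hb]
  have hvar : truncExp T s (fun K => ((K.card : ℝ) - m) ^ 2) U ≤ (U.card : ℝ) * B := by
    have e : (fun K : Finset V => ((K.card : ℝ) - m) ^ 2) =
        fun K => ((K.card : ℝ) * K.card + (-2 * m) * (K.card : ℝ)) + m ^ 2 := by
      funext K; ring
    rw [e, truncExp_add, truncExp_add, truncExp_smul, truncExp_const, hsq,
      truncExp_card T s hs, ← hm]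
    have h2 : ∀ a ∈ U, ∀ b ∈ U,
        truncExp T s (fun K => if a ∈ K ∧ b ∈ K then 1 else 0) U -
          survP T s U a * survP T s U b ≤ if b ∈ near a then 1 else 0 := by
      intro a ha b hb
      split
      · have h1 := truncExp_mono T s hs (f := fun K => if a ∈ K ∧ b ∈ K then (1 : ℝ) else 0)
          (g := fun _ => (1 : ℝ)) (U := U) (fun K _ => by split <;> norm_num) (Finset.Subset.refl U)
        rw [truncExp_const] at h1
        nlinarith [(survP_mem T s hs U a).1, (survP_mem T s hs U b).1]
      · rename_i hn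
        rw [hind a ha b hb hn, sub_self]
    calc _ = ∑ a ∈ U, ∑ b ∈ U, (truncExp T s (fun K => if a ∈ K ∧ b ∈ K then 1 else 0) U -
          survP T s U a * survP T s U b) := by
          simp only [Finset.sum_sub_distrib, ← Finset.mul_sum, ← Finset.sum_mul, ← hm]; ring
      _ ≤ ∑ a ∈ U, B := by
          refine Finset.sum_le_sum fun a ha => (Finset.sum_le_sum (h2 a ha)).trans ?_
          rw [Finset.sum_boole]
          refine le_trans ?_ (hB a ha)
          exact_mod_cast Finset.card_le_card fun b hb => (Finset.mem_filter.1 hb).2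
      _ = (U.card : ℝ) * B := by simp
  have hB0 : 0 ≤ (U.card : ℝ) * B := le_trans (by
    have := truncExp_mono T s hs (f := fun _ => (0 : ℝ))
      (g := fun K => ((K.card : ℝ) - m) ^ 2) (U := U) (fun K _ => sq_nonneg _)
      (Finset.Subset.refl U)
    rwa [truncExp_const] at this) hvar
  calc truncExp T s (fun K => |(K.card : ℝ) - c|) U
      ≤ truncExp T s (fun K => lam⁻¹ * ((K.card : ℝ) - m) ^ 2 + (lam + |m - c|)) U := by
        refine truncExp_mono T s hs (U := U) (fun K _ => ?_) (Finset.Subset.refl U)
        have h1 := abs_sub_le (K.card : ℝ) m c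
        have h3 : |(K.card : ℝ) - m| ≤ lam⁻¹ * ((K.card : ℝ) - m) ^ 2 + lam := by
          rw [← sq_abs ((K.card : ℝ) - m)]
          generalize hy : |(K.card : ℝ) - m| = y
          rcases le_total y lam with hyl | hyl
          · have : 0 ≤ lam⁻¹ * y ^ 2 := by positivity
            linarith
          · have : y ≤ lam⁻¹ * y ^ 2 := by
              rw [inv_mul_eq_div, le_div_iff₀ hlam]
              nlinarith [hyl, hlam]
            linarith
        linarith
    _ ≤ _ := by
        rw [truncExp_add, truncExp_smul, truncExp_const]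
        have : lam⁻¹ * truncExp T s (fun K => ((K.card : ℝ) - m) ^ 2) U ≤
            (U.card : ℝ) * B / lam := by
          rw [div_eq_inv_mul]
          exact mul_le_mul_of_nonneg_left hvar (inv_nonneg.2 hlam.le)
        linarith

end Vale.Agent.P046.Full
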